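import Vale.Agent.P125.Bdl.B1

/-!
# P125 : every real normed space with nontrivial Markov type is superreflexive
-/

namespace Vale.Agent.Results.P125.MarkovSuperreflexive

/-- Full positive answer to Q1: a real normed space `X` with Markov type `p` for some `p > 1`
admits an equivalent uniformly convex norm (it is superreflexive) and an equivalent uniformly
smooth norm. -/
theorem result {X : Type*} [NormedAddCommGroup X] [NormedSpace ℝ X] (p : ℝ) (hp : 1 < p)
    (h : _root_.P125.HasMarkovType X p) :
    _root_.P125.Superreflexive X ∧
      ∃ N : Seminorm ℝ X, _root_.P125.EquivalentNorm N ∧ _root_.P125.UniformlySmoothNorm N :=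
  _root_.P125.superreflexive_of_hasMarkovType hp h

end Vale.Agent.Results.P125.MarkovSuperreflexive
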